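import Vale.Agent.P254.FV.Final

/-!
P254, bodies with reflections: the numerical comparisons with the simplex.
-/

open Filter Topology

namespace Vale.Agent.P254.Sym

open FV

theorem simpC_lt_iff (n : ℕ) (c : ℝ) :
    c * (((n : ℝ) + 1) / (8 * ((n : ℝ) + 2))) ^ n < simpC n ↔
      c * ((n : ℝ) + 1) ^ (2 * n + 1) < 8 ^ n * (n.factorial : ℝ) ^ 2 := by
  unfold simpC
  have h1 : (0 : ℝ) < (n : ℝ) + 1 := by positivity
  have h2 : (0 : ℝ) < (n : ℝ) + 2 := by positivity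
  rw [div_pow, mul_pow, mul_div_assoc', div_lt_div_iff₀ (by positivity) (by positivity), mul_pow]
  have e1 : c * ((n : ℝ) + 1) ^ n * (((n : ℝ) + 1) * (((n : ℝ) + 1) ^ n * ((n : ℝ) + 2) ^ n)) =
      c * ((n : ℝ) + 1) ^ (2 * n + 1) * ((n : ℝ) + 2) ^ n := by
    rw [pow_succ, two_mul, pow_add]
    ring
  have e2 : (n.factorial : ℝ) ^ 2 * (8 ^ n * ((n : ℝ) + 2) ^ n) =
      8 ^ n * (n.factorial : ℝ) ^ 2 * ((n : ℝ) + 2) ^ n := by ring
  rw [e1, e2, mul_lt_mul_iff_left₀ (by positivity)]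

/-- For every polynomial loss the comparison holds in large dimension. -/
theorem num_q (q : ℕ) : ∃ N : ℕ, ∀ n ≥ N,
    (((n : ℝ) + 1) * (n + 2) / 2) ^ q * (((n : ℝ) + 1) / (8 * ((n : ℝ) + 2))) ^ n < simpC n := by
  have he : Real.exp 2 / 8 < 1 := by
    have := Real.exp_one_lt_d9
    have h2 : Real.exp 2 = Real.exp 1 ^ 2 := by rw [← Real.exp_nat_mul]; norm_num
    rw [h2, div_lt_one (by norm_num)]
    have h0 := Real.exp_pos 1
    nlinarith
  have ht : Tendsto (fun n : ℕ => (n : ℝ) ^ (2 * q + 1) * (Real.exp 2 / 8) ^ n) atTop (𝓝 0) :=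
    tendsto_pow_const_mul_const_pow_of_abs_lt_one _
      (by rw [abs_of_pos (by positivity)]; exact he)
  have hd : (0 : ℝ) < 1 / (3 ^ q * 2 * Real.exp 2) := by positivity
  obtain ⟨N, hN⟩ := eventually_atTop.1 (ht.eventually_lt_const hd)
  refine ⟨max N 1, fun n hn => ?_⟩
  have hn1 : (1 : ℝ) ≤ n := by exact_mod_cast (le_max_right _ _).trans hn
  have hb := hN n ((le_max_left _ _).trans hn)
  rw [simpC_lt_iff]
  have h1 : ((n : ℝ) + 1) ^ n ≤ n.factorial * Real.exp (n + 1) := by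
    have := Real.pow_div_factorial_le_exp ((n : ℝ) + 1) (by positivity) n
    rw [div_le_iff₀ (by positivity)] at this
    linarith
  have h2 : ((n : ℝ) + 1) ^ (2 * n + 1) ≤
      ((n : ℝ) + 1) * (n.factorial ^ 2 * (Real.exp 2 * Real.exp 2 ^ n)) := by
    have e : ((n : ℝ) + 1) ^ (2 * n + 1) = ((n : ℝ) + 1) * (((n : ℝ) + 1) ^ n) ^ 2 := by ring
    rw [e]
    refine mul_le_mul_of_nonneg_left ?_ (by positivity)
    calc (((n : ℝ) + 1) ^ n) ^ 2 ≤ (n.factorial * Real.exp (n + 1)) ^ 2 :=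
          pow_le_pow_left₀ (by positivity) h1 2
      _ = n.factorial ^ 2 * (Real.exp 2 * Real.exp 2 ^ n) := by
          rw [mul_pow, ← Real.exp_nat_mul, ← Real.exp_nat_mul, ← Real.exp_add]
          congr 2
          push_cast
          ring
  have h3 : (((n : ℝ) + 1) * (n + 2) / 2) ^ q ≤ 3 ^ q * (n : ℝ) ^ (2 * q) := by
    rw [pow_mul, ← mul_pow]
    refine pow_le_pow_left₀ (by positivity) ?_ q
    nlinarith
  have hf : (0 : ℝ) < n.factorial := by positivity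
  have h4 : (3 ^ q * (n : ℝ) ^ (2 * q)) * (((n : ℝ) + 1) *
      (n.factorial ^ 2 * (Real.exp 2 * Real.exp 2 ^ n))) < 8 ^ n * (n.factorial : ℝ) ^ 2 := by
    have h5 : (n : ℝ) ^ (2 * q + 1) * (Real.exp 2 / 8) ^ n * (3 ^ q * 2 * Real.exp 2) < 1 := by
      rwa [lt_div_iff₀ (by positivity)] at hb
    have h6 : (3 ^ q * (n : ℝ) ^ (2 * q)) * (((n : ℝ) + 1) *
      (n.factorial ^ 2 * (Real.exp 2 * Real.exp 2 ^ n))) ≤
        ((n : ℝ) ^ (2 * q + 1) * (Real.exp 2 / 8) ^ n * (3 ^ q * 2 * Real.exp 2)) *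
          (8 ^ n * (n.factorial : ℝ) ^ 2) := by
      have e8 : (Real.exp 2 / 8) ^ n * 8 ^ n = Real.exp 2 ^ n := by
        rw [← mul_pow, div_mul_cancel₀ _ (by norm_num)]
      have e9 : ((n : ℝ) ^ (2 * q + 1) * (Real.exp 2 / 8) ^ n * (3 ^ q * 2 * Real.exp 2)) *
          (8 ^ n * (n.factorial : ℝ) ^ 2) =
          (3 ^ q * (n : ℝ) ^ (2 * q)) * ((2 * n) *
            (n.factorial ^ 2 * (Real.exp 2 * ((Real.exp 2 / 8) ^ n * 8 ^ n)))) := by
        rw [pow_succ]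
        ring
      rw [e9, e8]
      gcongr
      linarith
    refine h6.trans_lt ?_
    exact mul_lt_of_lt_one_left (by positivity) h5
  refine lt_of_le_of_lt ?_ h4
  exact mul_le_mul h3 h2 (by positivity) (by positivity)

/-- Step of the inductions: `(1 + 1/(n+1))^(2n+3)` times a rational factor is below `8`. -/
theorem step_le {n : ℕ} {r δ : ℝ} (hr : r ≤ Real.exp (δ / (n + 1)))
    (hn : δ + 1 ≤ (n + 1) * (0.07 : ℝ)) :
    r * ((n : ℝ) + 2) ^ (2 * n + 3) ≤ 8 * ((n : ℝ) + 1) ^ (2 * n + 3) := by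
  have h1 : (0 : ℝ) < (n : ℝ) + 1 := by positivity
  have h2 : (n : ℝ) + 2 ≤ ((n : ℝ) + 1) * Real.exp (1 / (n + 1)) := by
    have := Real.add_one_le_exp (1 / ((n : ℝ) + 1))
    calc (n : ℝ) + 2 = ((n : ℝ) + 1) * (1 / ((n : ℝ) + 1) + 1) := by field_simp; ring
      _ ≤ _ := by gcongr
  have h3 : ((n : ℝ) + 2) ^ (2 * n + 3) ≤
      ((n : ℝ) + 1) ^ (2 * n + 3) * Real.exp (2 + 1 / (n + 1)) := by
    calc ((n : ℝ) + 2) ^ (2 * n + 3) ≤ (((n : ℝ) + 1) * Real.exp (1 / (n + 1))) ^ (2 * n + 3) :=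
          pow_le_pow_left₀ (by positivity) h2 _
      _ = _ := by
          rw [mul_pow, ← Real.exp_nat_mul]
          congr 2
          push_cast
          field_simp
          ring
  have h4 : Real.exp (δ / (n + 1)) * Real.exp (2 + 1 / (n + 1)) ≤ 8 := by
    rw [← Real.exp_add]
    have h5 : δ / (n + 1) + (2 + 1 / (n + 1)) ≤ 2 + (0.07 : ℝ) := by
      have : (δ + 1) / (n + 1) ≤ (0.07 : ℝ) := by
        rw [div_le_iff₀ h1]
        linarith
      have e : δ / ((n : ℝ) + 1) + (2 + 1 / (n + 1)) = 2 + (δ + 1) / (n + 1) := by ring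
      rw [e]
      linarith
    refine (Real.exp_le_exp.2 h5).trans ?_
    have h6 : Real.exp (0.07 : ℝ) ≤ 1.0726 := by
      have := Real.exp_bound' (x := (0.07 : ℝ)) (by norm_num) (by norm_num) (n := 3) (by norm_num)
      refine this.trans ?_
      norm_num [Finset.sum_range_succ, Nat.factorial]
    rw [Real.exp_add]
    have h7 : Real.exp 2 = Real.exp 1 ^ 2 := by rw [← Real.exp_nat_mul]; norm_num
    have h8 := Real.exp_one_lt_d9
    have h9 := Real.exp_pos 1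
    have h10 : Real.exp 2 ≤ 7.3891 := by rw [h7]; nlinarith
    calc Real.exp 2 * Real.exp (0.07 : ℝ) ≤ 7.3891 * 1.0726 :=
          mul_le_mul h10 h6 (Real.exp_pos _).le (by norm_num)
      _ ≤ 8 := by norm_num
  calc r * ((n : ℝ) + 2) ^ (2 * n + 3) ≤
        Real.exp (δ / (n + 1)) * (((n : ℝ) + 1) ^ (2 * n + 3) * Real.exp (2 + 1 / (n + 1))) :=
        mul_le_mul hr h3 (by positivity) (Real.exp_pos _).le
    _ = (Real.exp (δ / (n + 1)) * Real.exp (2 + 1 / (n + 1))) * ((n : ℝ) + 1) ^ (2 * n + 3) := by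
        ring
    _ ≤ _ := by gcongr

/-- One free direction, with the loss `(n+1)(n+2)/2`. -/
theorem num_one_aux : ∀ n : ℕ, 113 ≤ n →
    (((n : ℝ) + 1) * (n + 2) / 2) * ((n : ℝ) + 1) ^ (2 * n + 1) <
      8 ^ n * (n.factorial : ℝ) ^ 2 := by
  intro n hn
  induction n, hn using Nat.le_induction with
  | base =>
    have h : (113 : ℕ).factorial ^ 2 * 8 ^ 113 * 2 > 114 * 115 * 114 ^ 227 := by
      norm_num [Nat.factorial]
    have h' : ((((113 : ℕ).factorial ^ 2 * 8 ^ 113 * 2 : ℕ)) : ℝ) >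
      ((114 * 115 * 114 ^ 227 : ℕ) : ℝ) := by exact_mod_cast h
    push_cast at h' ⊢
    norm_num at h' ⊢
  | succ n hn ih =>
    have hnr : (113 : ℝ) ≤ n := by exact_mod_cast hn
    have h1 : (0 : ℝ) < (n : ℝ) + 1 := by positivity
    have hr : ((n : ℝ) + 3) / (n + 1) ≤ Real.exp (2 / (n + 1)) := by
      have := Real.add_one_le_exp (2 / ((n : ℝ) + 1))
      calc ((n : ℝ) + 3) / (n + 1) = 2 / ((n : ℝ) + 1) + 1 := by field_simp; ring
        _ ≤ _ := this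
    have hs := step_le (n := n) hr (by norm_num; linarith)
    rw [div_mul_eq_mul_div, div_le_iff₀ h1] at hs
    rw [Nat.factorial_succ]
    push_cast
    have e1 : ((n : ℝ) + 1 + 1) = n + 2 := by ring
    have e2 : ((n : ℝ) + 1 + 2) = n + 3 := by ring
    have e3 : 2 * (n + 1) + 1 = 2 * n + 3 := by ring
    rw [e1, e2, e3, pow_succ, mul_pow]
    have h2 : ((n : ℝ) + 3) * ((n : ℝ) + 2) ^ (2 * n + 3) ≤
        8 * ((n : ℝ) + 1) ^ 3 * ((n : ℝ) + 1) ^ (2 * n + 1) := by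
      refine hs.trans (le_of_eq ?_)
      ring
    calc ((n : ℝ) + 2) * (n + 3) / 2 * ((n : ℝ) + 2) ^ (2 * n + 3)
        = ((n : ℝ) + 2) / 2 * (((n : ℝ) + 3) * ((n : ℝ) + 2) ^ (2 * n + 3)) := by ring
      _ ≤ ((n : ℝ) + 2) / 2 * (8 * ((n : ℝ) + 1) ^ 3 * ((n : ℝ) + 1) ^ (2 * n + 1)) := by gcongr
      _ = 8 * ((n : ℝ) + 1) ^ 2 * ((((n : ℝ) + 1) * (n + 2) / 2) * ((n : ℝ) + 1) ^ (2 * n + 1)) := by
          ring
      _ < 8 * ((n : ℝ) + 1) ^ 2 * (8 ^ n * (n.factorial : ℝ) ^ 2) := by gcongr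
      _ = 8 ^ n * 8 * (((n : ℝ) + 1) ^ 2 * (n.factorial : ℝ) ^ 2) := by ring

theorem num_one {n : ℕ} (hn : 113 ≤ n) :
    (((n : ℝ) + 1) * (n + 2) / 2) * (((n : ℝ) + 1) / (8 * ((n : ℝ) + 2))) ^ n < simpC n :=
  (simpC_lt_iff n _).2 (num_one_aux n hn)

/-- One free direction, with the sharp loss `1/2`. -/
theorem num_half_aux : ∀ n : ℕ, 20 ≤ n →
    4 * ((n : ℝ) + 2) * ((n : ℝ) + 1) ^ (2 * n) < 8 ^ n * (n.factorial : ℝ) ^ 2 := by
  intro n hn
  induction n, hn using Nat.le_induction with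
  | base =>
    have h : (20 : ℕ).factorial ^ 2 * 8 ^ 20 > 4 * 22 * 21 ^ 40 := by
      norm_num [Nat.factorial]
    have h' : ((((20 : ℕ).factorial ^ 2 * 8 ^ 20 : ℕ)) : ℝ) >
      ((4 * 22 * 21 ^ 40 : ℕ) : ℝ) := by exact_mod_cast h
    push_cast at h' ⊢
    norm_num at h' ⊢
  | succ n hn ih =>
    have hnr : (20 : ℝ) ≤ n := by exact_mod_cast hn
    have h1 : (0 : ℝ) < (n : ℝ) + 1 := by positivity
    have h2 : (0 : ℝ) < (n : ℝ) + 2 := by positivity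
    -- `(n+3)/(n+2)^2 * (n+1) ≤ 1`
    have hr : ((n : ℝ) + 3) * (n + 1) / (n + 2) ^ 2 ≤ Real.exp (0 / (n + 1)) := by
      rw [zero_div, Real.exp_zero, div_le_one (by positivity)]
      nlinarith
    have hs := step_le (n := n) hr (by linarith)
    rw [div_mul_eq_mul_div, div_le_iff₀ (by positivity)] at hs
    rw [Nat.factorial_succ]
    push_cast
    have e1 : ((n : ℝ) + 1 + 1) = n + 2 := by ring
    have e2 : ((n : ℝ) + 1 + 2) = n + 3 := by ring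
    have e3 : 2 * (n + 1) = 2 * n + 2 := by ring
    rw [e1, e2, e3, pow_succ, mul_pow]
    have h3 : ((n : ℝ) + 3) * ((n : ℝ) + 2) ^ (2 * n + 2) ≤
        8 * ((n : ℝ) + 1) ^ 2 * (((n : ℝ) + 2) * ((n : ℝ) + 1) ^ (2 * n)) := by
      have e4 : ((n : ℝ) + 3) * (n + 1) * ((n : ℝ) + 2) ^ (2 * n + 3) =
          (((n : ℝ) + 3) * ((n : ℝ) + 2) ^ (2 * n + 2)) * ((n + 1) * (n + 2)) := by ring
      have e5 : 8 * ((n : ℝ) + 1) ^ (2 * n + 3) * (n + 2) ^ 2 =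
          (8 * ((n : ℝ) + 1) ^ 2 * (((n : ℝ) + 2) * ((n : ℝ) + 1) ^ (2 * n))) *
            ((n + 1) * (n + 2)) := by ring
      rw [e4, e5] at hs
      exact le_of_mul_le_mul_right hs (by positivity)
    calc 4 * ((n : ℝ) + 3) * ((n : ℝ) + 2) ^ (2 * n + 2)
        = 4 * (((n : ℝ) + 3) * ((n : ℝ) + 2) ^ (2 * n + 2)) := by ring
      _ ≤ 4 * (8 * ((n : ℝ) + 1) ^ 2 * (((n : ℝ) + 2) * ((n : ℝ) + 1) ^ (2 * n))) := by gcongr
      _ = 8 * ((n : ℝ) + 1) ^ 2 * (4 * ((n : ℝ) + 2) * ((n : ℝ) + 1) ^ (2 * n)) := by ring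
      _ < 8 * ((n : ℝ) + 1) ^ 2 * (8 ^ n * (n.factorial : ℝ) ^ 2) := by gcongr
      _ = 8 ^ n * 8 * (((n : ℝ) + 1) ^ 2 * (n.factorial : ℝ) ^ 2) := by ring

theorem num_half {n : ℕ} (hn : 20 ≤ n) :
    (1 / 2 : ℝ) * (((n : ℝ) + 1) / (8 * ((n : ℝ) + 2))) ^ (n - 1) < simpC n := by
  have h := num_half_aux n hn
  have h1 : (0 : ℝ) < (n : ℝ) + 1 := by positivity
  have h2 : (0 : ℝ) < (n : ℝ) + 2 := by positivity
  have e : (1 / 2 : ℝ) * (((n : ℝ) + 1) / (8 * ((n : ℝ) + 2))) ^ (n - 1) =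
      (4 * ((n : ℝ) + 2) / (n + 1)) * (((n : ℝ) + 1) / (8 * ((n : ℝ) + 2))) ^ n := by
    obtain ⟨m, rfl⟩ : ∃ m, n = m + 1 := ⟨n - 1, by omega⟩
    rw [Nat.add_sub_cancel, pow_succ]
    field_simp
    ring
  rw [e, simpC_lt_iff]
  refine lt_of_eq_of_lt ?_ h
  rw [pow_succ]
  field_simp

end Vale.Agent.P254.Sym
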